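import Vale.Agent.P088.R2.H551.V.All
import Vale.Agent.P088.R2.H551.B.Spec
import Vale.Agent.P088.R2.H285.JDat
import Vale.Agent.P088.R2.H313.BEn
import Vale.Agent.P088.R2.H867.BQu
import Vale.Agent.P088.R2.H281.JBdR
import Vale.Agent.P088.R2.H606.JInf
import Vale.Agent.P088.R2.H794.J.Fin2
import Vale.Agent.P088.R2.H335.JSc
import Vale.Agent.P088.R2.H803.JLC
import Vale.Agent.P088.R2.H760.JUN
import Vale.Agent.P088.R2.H760.JCC
import Vale.Agent.P088.R2.H932.JLIN
import Vale.Agent.P088.R2.H475.B.Os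
import Vale.Agent.P088.R2.H408.JSB
import Vale.Agent.P088.R2.H486.B.JRT

/-!
# P088, two arbitrary pairs on a smooth domain: all rows plugged in
-/

noncomputable section

namespace Vale.Agent.P088.PJ.Bd

theorem cBD : RowBD := H281.rowBD rowQU Vale.Agent.P088.R2.H313.rowEN

theorem cINF : RowINF := Vale.Agent.P088.R2.H606.rowINF cBD

theorem cFIN : RowFIN := rowFIN cINF Vale.Agent.P088.PJ.rowRG

theorem cSC : RowSC := H335.rowSC H285.rowDAT cFIN

theorem cLC : RowLC := Vale.Agent.P088.R2.H803.rowLC cSC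

theorem cUN : RowUN := Vale.Agent.P088.PJ.H760.rowUN cLC

theorem cCC : RowCC := Vale.Agent.P088.PJ.H760.rowCC cUN H932.rowLIN

theorem cOS : RowOS := Vale.Agent.P088.PJ.H475.rowOS cCC

theorem cSB : RowSB := Vale.Agent.P088.R2.H408.rowSB cOS

/-- **Two arbitrary pairs on a smooth domain.** -/
theorem finB : FinB := finB_of cOS cSB

end Vale.Agent.P088.PJ.Bd
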